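import Vale.Agent.P205.Wave.Sized

/-!
The amplitude over a speed `a` with relative cost, and relative cost from lower bounds.
-/

noncomputable section

open Set Finset Real
open scoped ContDiff

namespace Vale.Agent.P205.Wave

variable {ι X : Type} [NormedAddCommGroup X] [NormedSpace ℝ X]

namespace Cost

variable {σ : Scale ι X}

/-- An absolute bound `P` and a lower bound `1 / Q` give the relative cost `B P Q`. -/
theorem rel_of_lower {f : ι → X → ℝ} {P Q : ι → ℝ} (hf : Cost σ (fun t _ => P t) f)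
    (hP : ∀ t, 1 ≤ P t) (hQ : ∀ t, 1 ≤ Q t) (hlo : ∀ t, ∀ x ∈ σ.S t, 1 ≤ Q t * f t x)
    (τ : Scale ι X) (hS : ∀ t, τ.S t ⊆ σ.S t) (hB : ∀ t, σ.B t * (P t * Q t) ≤ τ.B t) :
    Cost τ f f := by
  have hpos : ∀ t, ∀ x ∈ σ.S t, 0 < f t x := fun t x hx =>
    pos_of_mul_pos_right (zero_lt_one.trans_le (hlo t x hx)) (zero_le_one.trans (hQ t))
  refine ⟨fun t => (hf.smooth t).mono (hS t), fun t x hx => (hpos t x (hS t hx)).le, fun i => ?_⟩
  rcases Nat.eq_zero_or_pos i with rfl | hi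
  · refine ⟨1, zero_le_one, fun t x hx => ?_⟩
    rw [norm_iteratedFDeriv_zero, pow_zero, mul_one, one_mul, Real.norm_eq_abs,
      abs_of_pos (hpos t x (hS t hx))]
  obtain ⟨C, hC0, hC⟩ := hf.bound i
  refine ⟨C, hC0, fun t x hx => (hC t x (hS t hx)).trans ?_⟩
  have hx' := hS t hx
  have hB0 : 0 ≤ σ.B t := zero_le_one.trans (σ.one_le t)
  have hPQ : 1 ≤ P t * Q t := one_le_mul_of_one_le_of_one_le (hP t) (hQ t)
  calc C * P t * σ.B t ^ i
      ≤ C * (P t * (Q t * f t x)) * σ.B t ^ i := by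
        refine mul_le_mul_of_nonneg_right (mul_le_mul_of_nonneg_left ?_ hC0) (pow_nonneg hB0 i)
        exact le_mul_of_one_le_right (zero_le_one.trans (hP t)) (hlo t x hx')
    _ = C * f t x * ((P t * Q t) * σ.B t ^ i) := by ring
    _ ≤ C * f t x * τ.B t ^ i := by
        refine mul_le_mul_of_nonneg_left ?_ (mul_nonneg hC0 (hpos t x hx').le)
        calc P t * Q t * σ.B t ^ i ≤ (P t * Q t) ^ i * σ.B t ^ i :=
              mul_le_mul_of_nonneg_right (le_self_pow₀ hPQ (by omega)) (pow_nonneg hB0 i)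
          _ ≤ τ.B t ^ i := by
              rw [← mul_pow, mul_comm]
              exact pow_le_pow_left₀ (mul_nonneg hB0 (zero_le_one.trans hPQ)) (hB t) i

end Cost

/-- The amplitude `ρ √(3ℓ+a) / √((ℓ+a)³)`, `ℓ = √(a² + ρ²)`. -/
def ampOf (a ρ : ℝ) : ℝ :=
  ρ * Real.sqrt (3 * Real.sqrt (a ^ 2 + ρ ^ 2) + a) /
    Real.sqrt ((Real.sqrt (a ^ 2 + ρ ^ 2) + a) ^ 3)

/-- Over a speed with relative cost: the length, its difference to the speed and the amplitude. -/
theorem amp_cost {σ : Scale ι X} {a ρ : ι → X → ℝ} {w : ι → X → ℝ} (ha : Cost σ a a)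
    (hpos : ∀ t, ∀ x ∈ σ.S t, 0 < a t x)
    (hrel : Cost σ (fun t x => Real.sqrt (a t x ^ 2 + ρ t x ^ 2)) ρ) (hρ : Cost σ w ρ) :
    Cost σ (fun t x => Real.sqrt (a t x ^ 2 + ρ t x ^ 2))
        (fun t x => Real.sqrt (a t x ^ 2 + ρ t x ^ 2)) ∧
      Cost σ w (fun t x => Real.sqrt (a t x ^ 2 + ρ t x ^ 2) - a t x) ∧
      Cost σ (fun _ _ => 1) (fun t x => ampOf (a t x) (ρ t x)) ∧
      Cost σ (fun t x => w t x * (Real.sqrt (a t x ^ 2 + ρ t x ^ 2))⁻¹)
        fun t x => ampOf (a t x) (ρ t x) := by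
  set l : ι → X → ℝ := fun t x => Real.sqrt (a t x ^ 2 + ρ t x ^ 2) with hl
  have lsq : ∀ t x, l t x ^ 2 = a t x ^ 2 + ρ t x ^ 2 := fun t x => Real.sq_sqrt (by positivity)
  have lpos : ∀ t, ∀ x ∈ σ.S t, 0 < l t x := fun t x hx => by
    have := hpos t x hx; exact Real.sqrt_pos.2 (by positivity)
  have le_l : ∀ t x, a t x ≤ l t x := fun t x =>
    Real.le_sqrt_of_sq_le (le_add_of_nonneg_right (sq_nonneg _))
  have hnn : ∀ t, ∀ x ∈ σ.S t, 0 ≤ l t x := fun t x hx => (lpos t x hx).le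
  have haa := ha.mono zero_le_one hnn fun t x _ => by rw [one_mul]; exact le_l t x
  have hell2 : Cost σ (fun t x => l t x ^ 2) fun t x => l t x ^ 2 := by
    have h1 := (haa.mul haa).mono zero_le_one (w' := fun t x => l t x ^ 2)
      (fun t x _ => sq_nonneg _) fun t x _ => le_of_eq (by ring)
    have h2 := (hrel.mul hrel).mono zero_le_one (w' := fun t x => l t x ^ 2)
      (fun t x _ => sq_nonneg _) fun t x _ => le_of_eq (by simp only [hl]; ring)
    exact (h1.add h2).congr fun t x _ => by rw [lsq]; ring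
  have hL : Cost σ l l := by
    have h := hell2.rel_sqrt fun t x hx => pow_pos (lpos t x hx) 2
    refine (h.mono zero_le_one hnn fun t x hx => ?_).congr fun t x hx => ?_
    · rw [one_mul, Real.sqrt_sq (hnn t x hx)]
    · rw [Real.sqrt_sq (hnn t x hx)]
  have hw : ∀ t, ∀ x ∈ σ.S t, 0 ≤ w t x := hρ.nonneg
  have hi := (hL.add haa).inv one_pos lpos fun t x hx => by
    have := hpos t x hx; linarith
  have h3 : Cost σ l fun t x => 3 * l t x + a t x :=
    ((((Cost.const (3 : ℝ)).mul hL).mono zero_le_one hnn fun t x _ => le_of_eq (by ring)).add haa)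
  have s3 := h3.sqrt one_pos lpos fun t x hx => by
    have := lpos t x hx; have := hpos t x hx; linarith
  have h1 := hL.add haa
  have c3 := ((h1.mul h1).mul h1).mono zero_le_one (w' := fun t x => l t x ^ 3)
    (fun t x hx => pow_nonneg (hnn t x hx) 3) fun t x _ => le_of_eq (by ring)
  have hp : ∀ t, ∀ x ∈ σ.S t, l t x ^ 3 ≤ (l t x + a t x) ^ 3 := fun t x hx =>
    pow_le_pow_left₀ (hnn t x hx) (le_add_of_nonneg_right (hpos t x hx).le) 3
  have r3 := (c3.sqrt one_pos (fun t x hx => pow_pos (lpos t x hx) 3) fun t x hx => by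
    rw [one_mul]; exact (hp t x hx).trans (le_of_eq (by ring))).inv one_pos
      (fun t x hx => Real.sqrt_pos.2 (pow_pos (lpos t x hx) 3)) fun t x hx => by
        rw [one_mul]; exact Real.sqrt_le_sqrt ((hp t x hx).trans (le_of_eq (by ring)))
  have ew : ∀ t, ∀ x ∈ σ.S t, Real.sqrt (l t x) * (Real.sqrt (l t x ^ 3))⁻¹ = (l t x)⁻¹ := by
    intro t x hx
    have h0 := lpos t x hx
    rw [show l t x ^ 3 = l t x ^ 2 * l t x by ring, Real.sqrt_mul (sq_nonneg _),
      Real.sqrt_sq h0.le]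
    have := (Real.sqrt_pos.2 h0).ne'
    field_simp
  have e : ∀ t, ∀ x ∈ σ.S t, ampOf (a t x) (ρ t x) = ρ t x *
      (Real.sqrt (3 * l t x + a t x) *
        (Real.sqrt ((l t x + a t x) * (l t x + a t x) * (l t x + a t x)))⁻¹) := fun t x _ => by
    simp only [ampOf, hl, pow_succ, pow_zero, one_mul]; ring
  refine ⟨hL, ?_, ?_, ?_⟩
  · refine (((hρ.mul hrel).mul hi).mono zero_le_one hw fun t x hx => ?_).congr fun t x hx => ?_
    · have := (lpos t x hx).ne'
      exact le_of_eq (by simp only [hl] at *; field_simp)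
    · have := lpos t x hx
      have := hpos t x hx
      show l t x - a t x = _
      field_simp
      linear_combination lsq t x
  · refine ((hrel.mul (s3.mul r3)).mono zero_le_one (fun _ _ _ => zero_le_one)
      fun t x hx => ?_).congr e
    rw [ew t x hx, mul_inv_cancel₀ (lpos t x hx).ne', one_mul]
  · refine ((hρ.mul (s3.mul r3)).mono zero_le_one
      (fun t x hx => mul_nonneg (hw t x hx) (inv_nonneg.2 (hnn t x hx))) fun t x hx => ?_).congr e
    rw [ew t x hx, one_mul]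

/-- The same charts with the magnitude `c M ^ q`. -/
def Mag.boost (μ : Mag ι X) (q : ℕ) (hq : 1 ≤ q) (c : ℝ) (hc : 1 ≤ c) : Mag ι X where
  toScale := μ.toScale
  M t := c * μ.M t ^ q
  A := μ.A
  le_M t := ((μ.le_M t).trans (le_self_pow₀ (μ.one_le_M t) (by omega))).trans
    (le_mul_of_one_le_left (pow_nonneg (zero_le_one.trans (μ.one_le_M t)) q) hc)
  A_nonneg := μ.A_nonneg
  A_le := μ.A_le

theorem Sz.boost {F : Type} [NormedAddCommGroup F] [NormedSpace ℝ F] {μ : Mag ι X} {d m m' : ℕ}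
    {f : ι → X → F} (hf : Sz μ d m f) {q : ℕ} (hq : 1 ≤ q) {c : ℝ} (hc : 1 ≤ c)
    (hm : m ≤ q * m') : Sz (μ.boost q hq c hc) d m' f :=
  Cost.sz (μ := μ.boost q hq c hc) hf zero_le_one fun t x hx => by
    have h1 : 1 ≤ μ.M t := μ.one_le_M t
    rw [one_mul]
    refine mul_le_mul_of_nonneg_left ?_ (pow_nonneg (μ.A_nonneg t x hx) d)
    calc μ.M t ^ m ≤ (μ.M t ^ q) ^ m' := by rw [← pow_mul]; exact pow_le_pow_right₀ h1 hm
      _ ≤ (c * μ.M t ^ q) ^ m' := pow_le_pow_left₀ (pow_nonneg (zero_le_one.trans h1) q)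
          (le_mul_of_one_le_left (pow_nonneg (zero_le_one.trans h1) q) hc) m'

end Vale.Agent.P205.Wave
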