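import Vale.Agent.P205.Tame.FreeBounds
import Vale.Agent.P205.Tame.Amp
import Vale.Agent.P205.Free.Profile

/-!
The size estimates of a free wave over a unit normal (`Prof.ofNormal`), from those of its data.
-/

noncomputable section

open Set Finset Real
open scoped ContDiff

namespace Vale.Agent.P205.Free

open Wave

variable {ι E : Type} [NormedAddCommGroup E] [NormedSpace ℝ E] [FiniteDimensional ℝ E]

/-- The shape in the variables `u = c₁ sin s`, `w = c₂ cos s`. -/
theorem sh_uw (c : ℝ × ℝ) (s : ℝ) :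
    sh0 c s = 1 - 2 * ((c.1 * Real.sin s) ^ 2 * (1 + (c.1 * Real.sin s) ^ 2)⁻¹) ∧
      sh1 c s = c.1 * Real.sin s *
        (2 * Real.cos (c.2 * Real.cos s) * (1 + (c.1 * Real.sin s) ^ 2)⁻¹) ∧
      sh2 c s = c.1 * Real.sin s *
        (-2 * Real.sin (c.2 * Real.cos s) * (1 + (c.1 * Real.sin s) ^ 2)⁻¹) := by
  refine ⟨?_, ?_, ?_⟩
  · rw [sh0_eq]; field_simp; ring
  · rw [sh1, den, crv_sq, crv1]; field_simp
  · rw [sh2, den, crv_sq, crv2]; field_simp

theorem continuous_gap : Continuous gap1 ∧ Continuous gap2 :=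
  ⟨contDiffOn_univ.1 (Smooth2.mean (E := ℝ × ℝ) (f := fun c s => 1 - sh1 c s * sh1 c s)
      isOpen_univ (((contDiff_const (c := (1 : ℝ))).sub
        (contDiff_sh.2.1.mul contDiff_sh.2.1)).contDiffOn)) |>.continuous,
    contDiffOn_univ.1 (Smooth2.mean (E := ℝ × ℝ) (f := fun c s => 1 - sh2 c s * sh2 c s)
      isOpen_univ (((contDiff_const (c := (1 : ℝ))).sub
        (contDiff_sh.2.2.mul contDiff_sh.2.2)).contDiffOn)) |>.continuous⟩

/-- The mean gaps are bounded below for bounded parameters. -/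
theorem gap_low (R : ℝ) :
    ∃ δ, 0 < δ ∧ ∀ c : ℝ × ℝ, ‖c‖ ≤ R → δ ≤ gap1 c ∧ δ ≤ gap2 c := by
  rcases (Metric.closedBall (0 : ℝ × ℝ) R).eq_empty_or_nonempty with h0 | h0
  · exact ⟨1, one_pos, fun c hc => absurd (mem_closedBall_zero_iff.2 hc) (by simp [h0])⟩
  obtain ⟨a, -, ha⟩ := (isCompact_closedBall (0 : ℝ × ℝ) R).exists_isMinOn h0
    continuous_gap.1.continuousOn
  obtain ⟨b, -, hb⟩ := (isCompact_closedBall (0 : ℝ × ℝ) R).exists_isMinOn h0
    continuous_gap.2.continuousOn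
  exact ⟨min (gap1 a) (gap2 b), lt_min (gap_pos a).1 (gap_pos b).2, fun c hc =>
    ⟨(min_le_left _ _).trans (isMinOn_iff.1 ha c (mem_closedBall_zero_iff.2 hc)),
      (min_le_right _ _).trans (isMinOn_iff.1 hb c (mem_closedBall_zero_iff.2 hc))⟩⟩

namespace Prof

/-- What the estimates ask of a family of free waves over unit normals with twist `κ`. -/
structure NBounds (μ : Mag ι E) (W : ι → Wave.Data E) (n : ι → E → V4) (κ : ℝ) : Prop where
  ok : ∀ t, (ofNormal (W t) (n t) κ).OK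
  dom : ∀ t, μ.S t ⊆ (W t).Ω
  norm_v : ∀ t, ‖(W t).v‖ ≤ μ.M t
  norm_e : ∀ t, ‖(W t).e‖ ≤ μ.M t
  ze : Sz μ 0 1 fun t => (W t).Ze
  zv : Sz μ 0 1 fun t => (W t).Zv
  zz : Cost μ.toScale (fun t x => ip ((W t).Ze x) ((W t).Ze x))
    fun t x => ip ((W t).Ze x) ((W t).Ze x)
  zz_lo : ∀ t, ∀ x ∈ μ.S t, 1 ≤ μ.M t * ip ((W t).Ze x) ((W t).Ze x)
  gram : Cost μ.toScale (fun t x => gram2 ((W t).Ze x) ((W t).Zv x))
    fun t x => gram2 ((W t).Ze x) ((W t).Zv x)
  gram_lo : ∀ t, ∀ x ∈ μ.S t, 1 ≤ μ.M t * gram2 ((W t).Ze x) ((W t).Zv x)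
  nrm : Sz μ 0 1 n
  rho : Sz μ 1 0 fun t => (W t).rho
  rhoRel : Cost μ.toScale (fun t x => Real.sqrt ((ofNormal (W t) (n t) κ).aP x ^ 2 + (W t).rho x ^ 2))
    fun t => (W t).rho
  err : ∀ k, Sz μ.fast 1 k fun t p => (W t).Err k p.1 p.2

variable {μ : Mag ι E} {W : ι → Wave.Data E} {n : ι → E → V4} {κ : ℝ}

/-- **The free wave over a unit normal meets the size hypotheses of the recursion**, with the
magnitude `c M ^ 64`. -/
theorem NBounds.bounds (h : NBounds μ W n κ) :
    ∃ (c : ℝ) (hc : 1 ≤ c), Data.Bounds (μ.boost 64 (by norm_num) c hc)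
      fun t => (ofNormal (W t) (n t) κ).data := by
  set P : ι → Prof E := fun t => ofNormal (W t) (n t) κ
  have hF : ∀ t, ∀ x ∈ μ.S t, 0 < (P t).aP x ∧ (P t).aP x • (P t).tauP x = (P t).pvec x :=
    fun t x hx => ⟨(frame (h.ok t) (h.dom t hx)).1, (frame (h.ok t) (h.dom t hx)).2.2.2.2.2⟩
  have apos : ∀ t, ∀ x ∈ μ.S t, 0 < (P t).aP x := fun t x hx => (hF t x hx).1
  have hzpos : ∀ t, ∀ x ∈ μ.S t, 0 < ip ((W t).Ze x) ((W t).Ze x) := fun t x hx =>
    (h.ok t).zz_pos x (h.dom t hx)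
  have hgpos : ∀ t, ∀ x ∈ μ.S t, 0 < gram2 ((W t).Ze x) ((W t).Zv x) := fun t x hx =>
    pos_of_mul_pos_right (zero_lt_one.trans_le (h.gram_lo t x hx))
      (zero_le_one.trans (μ.one_le_M t))
  have invZz : Sz μ 0 1 fun t x => (ip ((W t).Ze x) ((W t).Ze x))⁻¹ :=
    (h.zz.rel_inv hzpos).sz zero_le_one fun t x hx => by
      rw [pow_zero, pow_one, one_mul, one_mul, inv_le_iff_one_le_mul₀' (hzpos t x hx), mul_comm]
      exact h.zz_lo t x hx
  have invGram : Sz μ 0 1 fun t x => (gram2 ((W t).Ze x) ((W t).Zv x))⁻¹ :=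
    (h.gram.rel_inv hgpos).sz zero_le_one fun t x hx => by
      rw [pow_zero, pow_one, one_mul, one_mul, inv_le_iff_one_le_mul₀' (hgpos t x hx), mul_comm]
      exact h.gram_lo t x hx
  have pvec : Sz μ 0 4 fun t => (P t).pvec :=
    ((h.zv.le le_rfl (show (1 : ℕ) ≤ 4 by omega)).sub
      ((((h.zv.ip h.ze).mul invZz).smul h.ze).le le_rfl (by omega))).congr fun t x _ => by
        simp only [P, ofNormal, Prof.pvec, div_eq_mul_inv]
  -- the speed
  have epp : ∀ t, ∀ x ∈ μ.S t, (P t).aP x ^ 2 =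
      gram2 ((W t).Ze x) ((W t).Zv x) * (ip ((W t).Ze x) ((W t).Ze x))⁻¹ := fun t x hx => by
    have := (hzpos t x hx).ne'
    rw [Prof.aP, Real.sq_sqrt ((h.ok t).pp_pos x (h.dom t hx)).le]
    simp [P, ofNormal, Prof.pvec, gram2, ip_comm ((W t).Zv x) ((W t).Ze x)]
    field_simp
    ring
  have ppRel : Cost μ.toScale (fun t x => (P t).aP x ^ 2) fun t x => (P t).aP x ^ 2 :=
    ((h.gram.mul (h.zz.rel_inv hzpos)).mono zero_le_one (fun t x _ => sq_nonneg _) fun t x hx => by
      rw [one_mul, epp t x hx]).congr epp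
  have pp8 : Sz μ 0 8 fun t x => (P t).aP x ^ 2 := (pvec.ip pvec).congr fun t x hx =>
    Real.sq_sqrt ((h.ok t).pp_pos x (h.dom t hx)).le
  have invPP : Sz μ 0 3 fun t x => ((P t).aP x ^ 2)⁻¹ :=
    ((h.ze.ip h.ze).mul invGram).congr fun t x hx => by rw [epp t x hx, mul_inv, inv_inv, mul_comm]
  have aRel : Cost μ.toScale (fun t x => (P t).aP x) fun t x => (P t).aP x := by
    refine ((ppRel.rel_sqrt fun t x hx => pow_pos (apos t x hx) 2).mono zero_le_one
      (fun t x hx => (apos t x hx).le) fun t x hx => ?_).congr fun t x hx => ?_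
    · rw [one_mul, Real.sqrt_sq (apos t x hx).le]
    · rw [Real.sqrt_sq (apos t x hx).le]
  obtain ⟨C0, hC0, hb0⟩ := Cost.abs_le pp8
  obtain ⟨C1, hC1, hb1⟩ := Cost.abs_le invPP
  have aP8 : Sz μ 0 8 fun t x => (P t).aP x :=
    aRel.sz (c := C0 + 1) (by linarith) fun t x hx => by
      have h2 := (le_abs_self _).trans (hb0 t x hx)
      rw [pow_zero, one_mul] at h2 ⊢
      nlinarith [one_le_pow₀ (μ.one_le_M t) (n := 8), sq_nonneg ((P t).aP x - 1)]
  have invA : Sz μ 0 3 fun t x => ((P t).aP x)⁻¹ :=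
    (aRel.rel_inv apos).sz (c := C1 + 1) (by linarith) fun t x hx => by
      have h2 := (le_abs_self _).trans (hb1 t x hx)
      rw [pow_zero, one_mul, ← inv_pow] at h2
      rw [pow_zero, one_mul]
      nlinarith [one_le_pow₀ (μ.one_le_M t) (n := 3), sq_nonneg (((P t).aP x)⁻¹ - 1)]
  have tau : Sz μ 0 7 fun t => (P t).tauP := (invA.smul pvec).congr fun t x _ => by
    simp only [Prof.tauP, one_div]
  -- the length and the amplitude
  obtain ⟨ellRel, dell, amp1, ampW⟩ := amp_cost aRel apos h.rhoRel h.rho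
  set ell : ι → E → ℝ := fun t x => Real.sqrt ((P t).aP x ^ 2 + (W t).rho x ^ 2)
  have lpos : ∀ t, ∀ x ∈ μ.S t, 0 < ell t x := fun t x hx => by
    have := apos t x hx; exact Real.sqrt_pos.2 (by positivity)
  have a_le : ∀ t x, (P t).aP x ≤ ell t x := fun t x =>
    Real.le_sqrt_of_sq_le (le_add_of_nonneg_right (sq_nonneg _))
  obtain ⟨C2, hC2, hb2⟩ := Cost.abs_le invA
  have hinv : ∀ t, ∀ x ∈ μ.S t, (ell t x)⁻¹ ≤ C2 * μ.M t ^ 3 := fun t x hx => by
    have h2 := (le_abs_self _).trans (hb2 t x hx)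
    rw [pow_zero, one_mul] at h2
    exact (inv_anti₀ (apos t x hx) (a_le t x)).trans h2
  have invL : Sz μ 0 3 fun t x => (ell t x)⁻¹ :=
    (ellRel.rel_inv lpos).sz hC2 fun t x hx => by rw [pow_zero, one_mul]; exact hinv t x hx
  have amp13 : Sz μ 1 3 fun t x => ampOf ((P t).aP x) ((W t).rho x) :=
    ampW.sz hC2 fun t x hx => by
      rw [pow_one, pow_zero, mul_one, mul_left_comm]
      exact mul_le_mul_of_nonneg_left (hinv t x hx) (μ.A_nonneg t x hx)
  have ellSq : ∀ t x, ell t x ^ 2 = (P t).aP x ^ 2 + (W t).rho x ^ 2 := fun t x =>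
    Real.sq_sqrt (by positivity)
  have ell11 : Sz μ 0 11 ell :=
    ((pp8.add ((h.rho.mul h.rho).le (by omega) (by omega))).mul invL).congr fun t x hx => by
      have := (lpos t x hx).ne'
      field_simp
      linear_combination ellSq t x
  have dl : Sz μ 1 0 fun t x => ell t x - (P t).aP x := dell
  have lsqRel : Cost μ.toScale (fun t x => ell t x * ell t x) fun t x => ell t x * ell t x :=
    ellRel.mul ellRel
  have L1 : Sz μ 0 18 fun t => (P t).L1 := by
    have hs : Sz μ 0 1 fun t x => (Real.sqrt (gram2 ((W t).Ze x) ((W t).Zv x)))⁻¹ :=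
      ((h.gram.rel_sqrt hgpos).rel_inv fun t x hx => Real.sqrt_pos.2 (hgpos t x hx)).sz zero_le_one
        fun t x hx => by
          have hg := hgpos t x hx
          rw [pow_zero, pow_one, one_mul, one_mul,
            inv_le_iff_one_le_mul₀' (Real.sqrt_pos.2 hg)]
          nlinarith [h.gram_lo t x hx, Real.sqrt_pos.2 hg, μ.one_le_M t, Real.sq_sqrt hg.le]
    have hcr : Sz μ 0 3 fun t x => cross ((W t).Ze x) ((W t).Zv x) (n t x) := by
      refine Sz.pi fun i => ?_
      have m3 : ∀ a b c : Fin 4, Sz μ 0 3 fun t x => (W t).Ze x a * ((W t).Zv x b * n t x c) :=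
        fun a b c => (h.ze.proj a).mul ((h.zv.proj b).mul (h.nrm.proj c))
      have T : ∀ a b c : Fin 4, Sz μ 0 3 fun t x => (W t).Ze x a *
          ((W t).Zv x b * n t x c - (W t).Zv x c * n t x b) := fun a b c =>
        ((m3 a b c).sub (m3 a c b)).congr fun t x _ => by ring
      fin_cases i <;> simp only [cross, Matrix.cons_val_zero, Matrix.cons_val_one,
        Matrix.cons_val_two, Matrix.cons_val_three, Matrix.head_cons, Matrix.tail_cons]
      · exact ((((T 1 2 3).sub (T 2 1 3)).add (T 3 1 2)).neg).congr fun t x _ => by simp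
      · exact (((T 0 2 3).sub (T 2 0 3)).add (T 3 0 2)).congr fun t x _ => by simp
      · exact ((((T 0 1 3).sub (T 1 0 3)).add (T 3 0 1)).neg).congr fun t x _ => by simp
      · exact (((T 0 1 2).sub (T 1 0 2)).add (T 2 0 1)).congr fun t x _ => by simp
    exact ((hs.smul hcr).le le_rfl (by omega)).congr fun t x _ => by
      simp only [P, ofNormal, one_div]
  have L2 : Sz μ 0 18 fun t => (P t).L2 :=
    (h.nrm.le le_rfl (by omega)).congr fun t x _ => rfl
  -- the shape
  set u : ι → E × ℝ → ℝ := fun t p => ((P t).c p.1).1 * Real.sin p.2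
  have hsin : Cost μ.fast.toScale (fun _ _ => 1) fun _ p => Real.sin p.2 :=
    Cost.sin (ContinuousLinearMap.snd ℝ E ℝ) (ContinuousLinearMap.norm_snd_le ℝ E ℝ)
  have hcos : Cost μ.fast.toScale (fun _ _ => 1) fun _ p => Real.cos p.2 := by
    have hh : Cost μ.fast.toScale (fun _ _ => 1) fun _ p =>
        Real.sin (((1 / 2 : ℝ) • ContinuousLinearMap.snd ℝ E ℝ) p) := Cost.sin _ (by
      rw [norm_smul, Real.norm_eq_abs, abs_of_pos (by norm_num : (0 : ℝ) < 1 / 2)]
      nlinarith [ContinuousLinearMap.norm_snd_le ℝ E ℝ,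
        norm_nonneg (ContinuousLinearMap.snd ℝ E ℝ)])
    refine ((Cost.const (1 : ℝ)).sub (((Cost.const (2 : ℝ)).mul (hh.mul hh)).mono zero_le_one
      (fun _ _ _ => zero_le_one) fun _ _ _ => le_of_eq (by ring))).congr fun t p _ => ?_
    simp only [ContinuousLinearMap.smul_apply, ContinuousLinearMap.coe_snd', smul_eq_mul]
    have e := Real.cos_two_mul (1 / 2 * p.2)
    have e2 := Real.sin_sq_add_cos_sq (1 / 2 * p.2)
    rw [show 2 * (1 / 2 * p.2) = p.2 by ring] at e
    rw [e]; linarith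
  have hu : Cost μ.fast.toScale (fun _ _ => 1) u :=
    (amp1.fast.mul hsin).mono zero_le_one (fun _ _ _ => zero_le_one) fun _ _ _ => by simp
  have hu1 : Sz μ.fast 1 3 u :=
    amp13.fast.mul (d' := 0) (m' := 0) (hsin.sz zero_le_one fun _ _ _ => by simp)
  obtain ⟨R, hR0, hR⟩ := hu.abs_le
  have hg : Sz μ.fast 0 0 fun t p => (1 + u t p ^ 2)⁻¹ :=
    (hu.comp_smooth (g := fun y : ℝ => (1 + y ^ 2)⁻¹) isOpen_univ
      (isCompact_Icc (a := -R) (b := R)) (subset_univ _)
      ((contDiff_const.add (contDiff_id.pow 2)).inv fun y => by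
        have : (0 : ℝ) < 1 + id y ^ 2 := by positivity
        exact this.ne').contDiffOn fun t p hp =>
          Set.mem_Icc.2 (abs_le.1 ((hR t p hp).trans (le_of_eq (mul_one R))))).sz zero_le_one
      fun _ _ _ => by simp
  have hu0 : Sz μ.fast 0 0 u := hu.sz zero_le_one fun _ _ _ => by simp
  have hw : Cost μ.fast.toScale (fun _ _ => 1) fun _ p => κ * Real.cos p.2 :=
    ((Cost.const κ).mul hcos).mono zero_le_one (fun _ _ _ => zero_le_one) fun _ _ _ => by simp
  have hwv : ∀ t, ∀ p ∈ μ.fast.S t, κ * Real.cos p.2 ∈ Set.Icc (-|κ|) |κ| := fun t p _ =>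
    Set.mem_Icc.2 (abs_le.1 (by
      rw [abs_mul]; exact mul_le_of_le_one_right (abs_nonneg κ) (Real.abs_cos_le_one _)))
  have hcw : Sz μ.fast 0 0 fun _ p => Real.cos (κ * Real.cos p.2) :=
    (hw.comp_smooth isOpen_univ isCompact_Icc (subset_univ _) Real.contDiff_cos.contDiffOn hwv).sz
      zero_le_one fun _ _ _ => by simp
  have hsw : Sz μ.fast 0 0 fun _ p => Real.sin (κ * Real.cos p.2) :=
    (hw.comp_smooth isOpen_univ isCompact_Icc (subset_univ _) Real.contDiff_sin.contDiffOn hwv).sz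
      zero_le_one fun _ _ _ => by simp
  have two : Sz μ.fast 0 0 fun _ _ => (2 : ℝ) := Sz.const 2
  have c2e : ∀ t x, ((P t).c x).2 = κ := fun t x => rfl
  have s0 : Sz μ.fast 1 3 fun t p => 1 - sh0 ((P t).c p.1) p.2 :=
    (two.mul ((hu1.mul hu0).mul hg)).congr fun t p _ => by
      rw [(sh_uw _ _).1]; simp only [u]; ring
  have s1 : Sz μ.fast 1 3 fun t p => sh1 ((P t).c p.1) p.2 :=
    (hu1.mul ((two.mul hcw).mul hg)).congr fun t p _ => by
      rw [(sh_uw _ _).2.1, c2e]
  have s2 : Sz μ.fast 1 3 fun t p => sh2 ((P t).c p.1) p.2 :=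
    (hu1.mul (((Sz.const (-2 : ℝ)).mul hsw).mul hg)).congr fun t p _ => by
      rw [(sh_uw _ _).2.2, c2e]
  have b1 : Sz μ.fast 0 0 fun t p => sh1 ((P t).c p.1) p.2 :=
    (hu0.mul ((two.mul hcw).mul hg)).congr fun t p _ => by
      rw [(sh_uw _ _).2.1, c2e]
  have b2 : Sz μ.fast 0 0 fun t p => sh2 ((P t).c p.1) p.2 :=
    (hu0.mul (((Sz.const (-2 : ℝ)).mul hsw).mul hg)).congr fun t p _ => by
      rw [(sh_uw _ _).2.2, c2e]
  have b0 : Sz μ.fast 0 0 fun t p => sh0 ((P t).c p.1) p.2 :=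
    ((Sz.const (1 : ℝ)).sub (two.mul ((hu0.mul hu0).mul hg))).congr fun t p _ => by
      rw [(sh_uw _ _).1]; simp only [u]; ring
  have unit : Sz μ.fast 0 18 fun t p => (P t).unit p.1 p.2 :=
    ((((b0.smul tau.fast).le le_rfl (by omega)).add (b1.smul L1.fast |>.le le_rfl (by omega))).add
      ((b2.smul L2.fast).le le_rfl (by omega))).congr fun _ _ _ => rfl
  -- the fields which remove means
  obtain ⟨δ, hδ0, hδ⟩ := gap_low (max (Cost.abs_le amp1).choose |κ|)
  have hcb : ∀ t, ∀ x ∈ μ.S t, δ ≤ gap1 ((P t).c x) ∧ δ ≤ gap2 ((P t).c x) := fun t x hx =>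
    hδ _ (by
      rw [Prod.norm_def]
      exact max_le_max (((Cost.abs_le amp1).choose_spec.2 t x hx).trans (le_of_eq (mul_one _)))
        le_rfl)
  have ginv : ∀ {g : ℝ × ℝ → ℝ → ℝ}, (Sz μ.fast 0 0 fun t p => g ((P t).c p.1) p.2) →
      (∀ t, ∀ x ∈ μ.S t, δ ≤ Wave.mean fun s => 1 - g ((P t).c x) s * g ((P t).c x) s) →
      Sz μ 0 0 fun t x => (Wave.mean fun s => 1 - g ((P t).c x) s * g ((P t).c x) s)⁻¹ := by
    intro g hgg hlo
    have hm := Sz.mean (h := fun t x s => 1 - g ((P t).c x) s * g ((P t).c x) s)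
      ((Sz.const (1 : ℝ)).sub (hgg.mul hgg))
    have hm1 : Cost μ.toScale (fun _ _ => 1)
        fun t x => Wave.mean fun s => 1 - g ((P t).c x) s * g ((P t).c x) s :=
      Cost.mono hm zero_le_one (fun _ _ _ => zero_le_one) fun _ _ _ => by simp
    exact (hm1.inv hδ0 (fun _ _ _ => one_pos) fun t x hx => by
      rw [mul_one]; exact hlo t x hx).sz zero_le_one fun _ _ _ => by simp
  have g1 := ginv (g := sh1) b1 fun t x hx => (hcb t x hx).1
  have g2 := ginv (g := sh2) b2 fun t x hx => (hcb t x hx).2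
  have fix1 : Sz μ.fast 0 18 fun t p => (P t).fix1 p.1 p.2 :=
    ((g1.fast.smul (L1.fast.sub ((b1.smul unit).le le_rfl (by omega)))).le le_rfl
      (by omega)).congr fun t p _ => by simp only [Prof.fix1, gap1, one_div]
  have fix2 : Sz μ.fast 0 18 fun t p => (P t).fix2 p.1 p.2 :=
    ((g2.fast.smul (L2.fast.sub ((b2.smul unit).le le_rfl (by omega)))).le le_rfl
      (by omega)).congr fun t p _ => by simp only [Prof.fix2, gap2, one_div]
  have hlen : ∀ t, ∀ x ∈ μ.S t, (P t).len x = ell t x := fun t x hx =>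
    m0_shapeOf (h.ok t) (h.dom t hx) (μ := κ) (ρ := (W t).rho x) rfl
  have hm0 : ∀ t, ∀ x ∈ μ.S t, ((P t).m0 x)⁻¹ = ell t x * ((P t).aP x)⁻¹ := fun t x hx => by
    show (Wave.mean (sh0 (shapeOf κ ((P t).aP x) ((W t).rho x))))⁻¹ = _
    rw [mean_shapeOf (apos t x hx), inv_div, div_eq_mul_inv]
  have dprof : Sz μ.fast 1 32 fun t p => (P t).data.T p.1 p.2 - (P t).data.pv p.1 := by
    have a := ((dl.fast.le le_rfl (m' := 14) (by omega)).sub
      ((ell11.fast.mul s0).le le_rfl le_rfl)).smul tau.fast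
    have b := (ell11.fast.mul s1).smul L1.fast
    have c := (ell11.fast.mul s2).smul L2.fast
    refine (((a.le (d' := 1) (m' := 32) (by omega) (by omega)).add
      (b.le (by omega) (by omega))).add (c.le (by omega) (by omega))).congr fun t p hp => ?_
    show (P t).len p.1 • (P t).unit p.1 p.2 - (P t).pvec p.1 = _
    rw [hlen t p.1 hp.1, ← (hF t p.1 hp.1).2, Prof.unit]
    module
  have phi : ∀ i, Sz μ.fast 0 40 fun t p => (P t).data.Phi i p.1 p.2 := fun i => by
    have a := ((tau.proj i).mul (ell11.mul invA)).fast.smul unit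
    have b := (L1.proj i).fast.smul fix1
    have c := (L2.proj i).fast.smul fix2
    refine (((a.le le_rfl (m' := 40) (by omega)).add (b.le le_rfl (by omega))).add
      (c.le le_rfl (by omega))).congr fun t p hp => ?_
    simp only [Prof.data]
    rw [div_eq_mul_inv, hm0 t p.1 hp.1]
  obtain ⟨C3, hC3, hb3⟩ := Cost.abs_le (invL.mul invL)
  refine ⟨C3 + 1, by linarith, ?_⟩
  have h64 : (1 : ℕ) ≤ 64 := by norm_num
  have hc : 1 ≤ C3 + 1 := by linarith
  have hlsq : ∀ t, ∀ x ∈ μ.S t, (P t).data.lsq x = ell t x * ell t x := fun t x hx => by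
    show ip ((P t).len x • (P t).unit x 0) ((P t).len x • (P t).unit x 0) = _
    rw [ip_smul_left, ip_smul_right, (ip_unit (h.ok t) (h.dom t hx) 0).2.1, hlen t x hx, mul_one]
  have hMle : ∀ t, μ.M t ≤ (C3 + 1) * μ.M t ^ 64 := fun t =>
    (le_self_pow₀ (μ.one_le_M t) (by norm_num)).trans
      (le_mul_of_one_le_left (pow_nonneg (zero_le_one.trans (μ.one_le_M t)) 64) hc)
  exact
    { good := fun t => Prof.good (h.ok t)
      dom := h.dom
      norm_v := fun t => (h.norm_v t).trans (hMle t)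
      norm_e := fun t => (h.norm_e t).trans (hMle t)
      ze := h.ze.boost h64 hc (by omega)
      zv := h.zv.boost h64 hc (by omega)
      zz := h.zz
      zz_lo := fun t x hx => (h.zz_lo t x hx).trans
        (mul_le_mul_of_nonneg_right (hMle t) (hzpos t x hx).le)
      lsq := (lsqRel.mono zero_le_one (w' := fun t x => (P t).data.lsq x)
        (fun t x hx => by rw [hlsq t x hx]; exact mul_self_nonneg _)
        fun t x hx => by rw [one_mul, hlsq t x hx]).congr hlsq
      lsq_lo := fun t x hx => by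
        show 1 ≤ (C3 + 1) * μ.M t ^ 64 * (P t).data.lsq x
        have h2 := (le_abs_self _).trans (hb3 t x hx)
        have hl := mul_pos (lpos t x hx) (lpos t x hx)
        rw [pow_add, pow_zero, one_mul, one_mul, ← mul_inv, inv_le_iff_one_le_mul₀ hl] at h2
        rw [hlsq t x hx]
        refine h2.trans (mul_le_mul_of_nonneg_right (mul_le_mul (by linarith) ?_ ?_
          (by linarith)) hl.le)
        · exact pow_le_pow_right₀ (μ.one_le_M t) (by norm_num)
        · exact pow_nonneg (zero_le_one.trans (μ.one_le_M t)) _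
      prof := (((ell11.fast.smul unit).le le_rfl (show 11 + 18 ≤ 64 * 1 by omega)).boost
        (μ := μ.fast) h64 hc le_rfl).congr fun t p hp => by
          show (P t).len p.1 • (P t).unit p.1 p.2 = _
          rw [hlen t p.1 hp.1]
      dprof := dprof.boost (μ := μ.fast) h64 hc (by omega)
      phi := fun i => (phi i).boost (μ := μ.fast) h64 hc (by omega)
      err := fun k => (h.err k).boost (μ := μ.fast) h64 hc (by omega) }

end Prof

end Vale.Agent.P205.Free
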