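import Vale.Agent.P205.Wave.Sized

/-!
Costs under affine substitutions, differences in a parameter, and flat weights.
-/

noncomputable section

open Set Finset
open scoped ContDiff

namespace Vale.Agent.P205.Wave

variable {ι : Type} {X Y : Type} [NormedAddCommGroup X] [NormedSpace ℝ X]
  [NormedAddCommGroup Y] [NormedSpace ℝ Y]
variable {F : Type} [NormedAddCommGroup F] [NormedSpace ℝ F]

namespace Cost

variable {σ : Scale ι X} {w : ι → X → ℝ} {f : ι → X → F}

/-- Substitution of an affine map: a derivative costs `B` times the norm of the linear part. -/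
theorem comp_affine (hf : Cost σ w f) (τ : Scale ι Y) (L : ι → Y →L[ℝ] X) (c : ι → X)
    (hL : ∀ t, σ.B t * ‖L t‖ ≤ τ.B t) (hmap : ∀ t, ∀ y ∈ τ.S t, L t y + c t ∈ σ.S t) :
    Cost τ (fun t y => w t (L t y + c t)) fun t y => f t (L t y + c t) := by
  have hc : ∀ t, Continuous fun x : X => x + c t := fun t => by fun_prop
  refine ⟨fun t => (hf.smooth t).comp ((L t).contDiff.add contDiff_const).contDiffOn (hmap t),
    fun t y hy => hf.nonneg t _ (hmap t y hy), fun i => ?_⟩
  obtain ⟨C, hC0, hC⟩ := hf.bound i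
  refine ⟨C, hC0, fun t y hy => ?_⟩
  have ho : IsOpen ((fun x => x + c t) ⁻¹' σ.S t) := (σ.isOpen t).preimage (hc t)
  have hg : ContDiffOn ℝ ∞ (fun x => f t (x + c t)) ((fun x => x + c t) ⁻¹' σ.S t) :=
    (hf.smooth t).comp (contDiff_id.add contDiff_const).contDiffOn fun _ hx => hx
  have hy' : L t y ∈ (fun x => x + c t) ⁻¹' σ.S t := hmap t y hy
  have e := (L t).iteratedFDerivWithin_comp_right (i := i) hg ho.uniqueDiffOn
    (ho.preimage (L t).continuous).uniqueDiffOn (x := y) hy' (by exact WithTop.coe_le_coe.2 le_top)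
  rw [iteratedFDerivWithin_of_isOpen i (ho.preimage (L t).continuous) hy',
    iteratedFDerivWithin_of_isOpen i ho hy', iteratedFDeriv_comp_add_right] at e
  rw [show (fun z => f t (L t z + c t)) = (fun x => f t (x + c t)) ∘ L t from rfl, e]
  refine (ContinuousMultilinearMap.norm_compContinuousLinearMap_le _ _).trans ?_
  rw [Finset.prod_const, Finset.card_univ, Fintype.card_fin]
  refine (mul_le_mul (hC t _ (hmap t y hy)) le_rfl (pow_nonneg (norm_nonneg _) _)
    (mul_nonneg (mul_nonneg hC0 (hf.nonneg t _ (hmap t y hy)))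
      (pow_nonneg (zero_le_one.trans (σ.one_le t)) i))).trans ?_
  rw [mul_assoc, ← mul_pow]
  exact mul_le_mul_of_nonneg_left
    (pow_le_pow_left₀ (mul_nonneg (zero_le_one.trans (σ.one_le t)) (norm_nonneg _)) (hL t) i)
    (mul_nonneg hC0 (hf.nonneg t _ (hmap t y hy)))

/-- A larger cost of derivatives or a smaller domain. -/
theorem rescale (hf : Cost σ w f) (τ : Scale ι X) (hB : ∀ t, σ.B t ≤ τ.B t)
    (hS : ∀ t, τ.S t ⊆ σ.S t) : Cost τ w f := by
  refine ⟨fun t => (hf.smooth t).mono (hS t), fun t x hx => hf.nonneg t x (hS t hx), fun i => ?_⟩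
  obtain ⟨C, hC0, hC⟩ := hf.bound i
  exact ⟨C, hC0, fun t x hx => (hC t x (hS t hx)).trans (mul_le_mul_of_nonneg_left
    (pow_le_pow_left₀ (zero_le_one.trans (σ.one_le t)) (hB t) i)
    (mul_nonneg hC0 (hf.nonneg t x (hS t hx))))⟩

/-- Differences in a parameter cost one derivative times the distance. -/
theorem sub_param {σ : Scale ι (X × ℝ)} {w : ι → X → ℝ} {f : ι → X × ℝ → F}
    (hf : Cost σ (fun t p => w t p.1) f) (τ : Scale ι X) (hB : ∀ t, σ.B t ≤ τ.B t)
    (a b : ι → ℝ) (hab : ∀ t, ∀ x ∈ τ.S t, ∀ l ∈ uIcc (a t) (b t), (x, l) ∈ σ.S t) :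
    Cost τ (fun t x => w t x * (σ.B t * |b t - a t|))
      fun t x => f t (x, b t) - f t (x, a t) := by
  have hsm : ∀ (l : ι → ℝ), (∀ t, l t ∈ uIcc (a t) (b t)) → ∀ t,
      ContDiffOn ℝ ∞ (fun x => f t (x, l t)) (τ.S t) := fun l hl t =>
    (hf.smooth t).comp (contDiff_id.prodMk contDiff_const).contDiffOn
      fun x hx => hab t x hx _ (hl t)
  have hB0 : ∀ t, 0 ≤ σ.B t := fun t => zero_le_one.trans (σ.one_le t)
  refine ⟨fun t => (hsm b (fun t => right_mem_uIcc) t).sub (hsm a (fun t => left_mem_uIcc) t),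
    fun t x hx => mul_nonneg (hf.nonneg t (x, a t) (hab t x hx _ left_mem_uIcc))
      (mul_nonneg (hB0 t) (abs_nonneg _)), fun i => ?_⟩
  obtain ⟨C, hC0, hC⟩ := hf.bound (i + 1)
  refine ⟨C, hC0, fun t x hx => ?_⟩
  have hmem := fun l hl => hab t x hx l hl
  set L := ContinuousLinearMap.inl ℝ X ℝ
  have hval : ∀ l ∈ uIcc (a t) (b t), iteratedFDeriv ℝ i (fun y => f t (y, l)) x =
      (iteratedFDeriv ℝ i (f t) (x, l)).compContinuousLinearMap fun _ => L := by
    intro l hl
    have ho : IsOpen ((fun p : X × ℝ => p + (0, l)) ⁻¹' σ.S t) :=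
      (σ.isOpen t).preimage (by fun_prop)
    have hg : ContDiffOn ℝ ∞ (fun p => f t (p + (0, l))) ((fun p => p + (0, l)) ⁻¹' σ.S t) :=
      (hf.smooth t).comp (contDiff_id.add contDiff_const).contDiffOn fun _ hp => hp
    have hx' : L x ∈ (fun p : X × ℝ => p + (0, l)) ⁻¹' σ.S t := by
      show L x + (0, l) ∈ σ.S t
      simpa [L] using hmem l hl
    have e := L.iteratedFDerivWithin_comp_right (i := i) hg ho.uniqueDiffOn
      (ho.preimage L.continuous).uniqueDiffOn (x := x) hx'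
      (by exact WithTop.coe_le_coe.2 le_top)
    rw [iteratedFDerivWithin_of_isOpen i (ho.preimage L.continuous) hx',
      iteratedFDerivWithin_of_isOpen i ho hx', iteratedFDeriv_comp_add_right] at e
    have e0 : (fun y => f t (y, l)) = (fun p => f t (p + (0, l))) ∘ L := by
      funext y; simp [L]
    rw [e0, e]
    simp [L]
  have hca : ∀ l ∈ uIcc (a t) (b t), ContDiffAt ℝ i (fun y => f t (y, l)) x := fun l hl => by
    have h1 : ContDiffAt ℝ i (f t) (x, l) := hf.contDiffAt (hmem l hl) i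
    exact h1.comp (f := fun y => (y, l)) x (contDiff_prodMk_left l).contDiffAt
  rw [fun_iteratedFDeriv_sub_apply (hca _ right_mem_uIcc) (hca _ left_mem_uIcc),
    hval _ right_mem_uIcc, hval _ left_mem_uIcc,
    ← ContinuousMultilinearMap.compContinuousLinearMapL_apply,
    ← ContinuousMultilinearMap.compContinuousLinearMapL_apply, ← map_sub,
    ContinuousMultilinearMap.compContinuousLinearMapL_apply]
  refine (ContinuousMultilinearMap.norm_compContinuousLinearMap_le _ _).trans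
    ((mul_le_of_le_one_right (norm_nonneg _) (Finset.prod_le_one (fun _ _ => norm_nonneg _)
      fun _ _ => ContinuousLinearMap.norm_inl_le_one ℝ X ℝ)).trans ?_)
  have key := (convex_segment (x, a t) (x, b t)).norm_image_sub_le_of_norm_fderiv_le (𝕜 := ℝ)
    (f := iteratedFDeriv ℝ i (f t)) (C := C * w t x * σ.B t ^ (i + 1))
    (fun p hp => ?_) (fun p hp => ?_) (left_mem_segment ℝ _ _) (right_mem_segment ℝ _ _)
  · refine key.trans ?_
    rw [Prod.mk_sub_mk, sub_self, Prod.norm_mk, norm_zero, max_eq_right (norm_nonneg _),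
      Real.norm_eq_abs, pow_succ]
    refine le_trans (le_of_eq (by ring)) (mul_le_mul_of_nonneg_left
      (pow_le_pow_left₀ (hB0 t) (hB t) i) ?_)
    exact mul_nonneg hC0 (mul_nonneg (hf.nonneg t (x, a t) (hmem _ left_mem_uIcc))
      (mul_nonneg (hB0 t) (abs_nonneg _)))
  all_goals
    obtain ⟨rfl, hl⟩ : p.1 = x ∧ p.2 ∈ uIcc (a t) (b t) := by
      obtain ⟨r, s, hr, hs, hrs, rfl⟩ := hp
      refine ⟨by simp [← add_smul, hrs], ?_⟩
      rw [← segment_eq_uIcc]
      exact ⟨r, s, hr, hs, hrs, by simp⟩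
    have hp' : p ∈ σ.S t := hmem _ hl
  · exact (hf.contDiffAt hp' (i + 1)).differentiableAt_iteratedFDeriv (by exact_mod_cast i.lt_succ_self)
  · rw [norm_fderiv_iteratedFDeriv]
    exact hC t p hp'

/-- A uniform bound by `C i * B ^ i` on a set containing the domain. -/
theorem of_bd {S : ι → Set X} (hsm : ∀ t, ContDiffOn ℝ ∞ (f t) (σ.S t))
    (hS : ∀ t, σ.S t ⊆ S t) (C : ℕ → ℝ)
    (hb : ∀ t i, ∀ x ∈ S t, ‖iteratedFDeriv ℝ i (f t) x‖ ≤ C i * σ.B t ^ i) :
    Cost σ (fun _ _ => 1) f :=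
  ⟨hsm, fun _ _ _ => zero_le_one, fun i => ⟨|C i|, abs_nonneg _, fun t x hx =>
    (hb t i x (hS t hx)).trans (by
      rw [mul_one]
      exact mul_le_mul_of_nonneg_right (le_abs_self _)
        (pow_nonneg (zero_le_one.trans (σ.one_le t)) i))⟩⟩

/-- A flat function costs any power less than one of itself. -/
theorem of_flat {χ : ι → X → ℝ} (hsm : ∀ t, ContDiffOn ℝ ∞ (χ t) (σ.S t))
    (h0 : ∀ t, ∀ x ∈ σ.S t, 0 ≤ χ t x) (C : ℕ → ℝ) (d : ℕ)
    (hb : ∀ t i, ∀ x ∈ σ.S t,
      ‖iteratedFDeriv ℝ i (χ t) x‖ ^ (d + 1) ≤ (C i * σ.B t ^ i) ^ (d + 1) * χ t x ^ d) :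
    Cost σ (fun t x => χ t x ^ ((d : ℝ) / (d + 1))) χ := by
  refine ⟨hsm, fun t x hx => Real.rpow_nonneg (h0 t x hx) _, fun i => ⟨|C i|, abs_nonneg _,
    fun t x hx => ?_⟩⟩
  have hB : (0 : ℝ) ≤ σ.B t ^ i := pow_nonneg (zero_le_one.trans (σ.one_le t)) i
  refine le_of_pow_le_pow_left₀ (Nat.succ_ne_zero d)
    (mul_nonneg (mul_nonneg (abs_nonneg _) (Real.rpow_nonneg (h0 t x hx) _)) hB)
    ((hb t i x hx).trans ?_)
  rw [mul_right_comm |C i|, mul_pow (|C i| * σ.B t ^ i), ← Real.rpow_natCast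
    (χ t x ^ ((d : ℝ) / (d + 1))) (d + 1), ← Real.rpow_mul (h0 t x hx), Nat.cast_succ,
    div_mul_cancel₀ _ (by positivity), Real.rpow_natCast]
  refine mul_le_mul_of_nonneg_right ?_ (pow_nonneg (h0 t x hx) d)
  refine (le_abs_self _).trans ?_
  rw [abs_pow, abs_mul, abs_of_nonneg hB]

end Cost

end Vale.Agent.P205.Wave
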