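import Vale.Agent.P205.Free.Expand
import Vale.Agent.P205.Wave.CostKin

/-!
Sizes of the correctors, coefficients and slow tensors of a free wave.
-/

noncomputable section

open Set Finset Real
open scoped ContDiff

namespace Vale.Agent.P205.Free

open Wave Wave.Data

variable {ι E : Type} [NormedAddCommGroup E] [NormedSpace ℝ E] [FiniteDimensional ℝ E]

namespace Data

/-- What the size estimates ask of a family of free waves. -/
structure Bounds (μ : Mag ι E) (W : ι → Free.Data E) : Prop where
  good : ∀ t, (W t).Good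
  dom : ∀ t, μ.S t ⊆ (W t).Ω
  norm_v : ∀ t, ‖(W t).v‖ ≤ μ.M t
  norm_e : ∀ t, ‖(W t).e‖ ≤ μ.M t
  ze : Sz μ 0 1 fun t => (W t).toData.Ze
  zv : Sz μ 0 1 fun t => (W t).toData.Zv
  zz : Cost μ.toScale (fun t => (W t).zz) fun t => (W t).zz
  zz_lo : ∀ t, ∀ x ∈ μ.S t, 1 ≤ μ.M t * (W t).zz x
  lsq : Cost μ.toScale (fun t => (W t).lsq) fun t => (W t).lsq
  lsq_lo : ∀ t, ∀ x ∈ μ.S t, 1 ≤ μ.M t * (W t).lsq x
  prof : Sz μ.fast 0 1 fun t p => (W t).T p.1 p.2
  dprof : Sz μ.fast 1 1 fun t p => (W t).T p.1 p.2 - (W t).pv p.1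
  phi : ∀ i, Sz μ.fast 0 1 fun t p => (W t).Phi i p.1 p.2
  err : ∀ n, Sz μ.fast 1 n fun t p => (W t).Err n p.1 p.2

/-- Size at most `A * M ^ expo j` in order `j`, zero beyond `n`. -/
structure Grows (μ : Mag ι E) (W : ι → Free.Data E) (Y : ι → ℕ → E → ℝ → V4) (n : ℕ) : Prop where
  one : 1 ≤ n
  inv : ∀ t, Inv (W t) (Y t) n
  size : ∀ j, Sz μ.fast 1 (expo j) fun t p => Y t j p.1 p.2

theorem mean_step {W : Free.Data E} (h : W.Good) {Y : ℕ → E → ℝ → V4}
    (hY : ∀ j, SP W.Ω (Y j)) (n : ℕ) {x : E} (hx : x ∈ W.Ω) : mean (W.step Y n x) = 0 := by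
  obtain ⟨hd, hd0⟩ := sp_du1 h hY n
  have cd := hd.cont hx
  have cu : Continuous (W.toData.u1 Y n x) := continuous_prim cd
  have cq := (sp_dq h hY n).1.cont hx
  have m1 : mean (W.toData.u1 Y n x) = 0 := mean_prim cd
  have e : W.step Y n x = fun s =>
      ((W.zz x)⁻¹ * W.toData.u1 Y n x s) • W.toData.Ze x + prim (W.dq Y n x) s := by
    funext s; simp only [step, div_eq_inv_mul]
  rw [e, mean_add (by fun_prop) (continuous_prim cq), mean_smul_const, mean_mul, m1, mean_prim cq]
  simp

/-- All correctors of a free wave have zero mean. -/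
theorem mean_upTo {W : Free.Data E} (h : W.Good) :
    ∀ (m j : ℕ), ∀ x ∈ W.Ω, mean (W.upTo (m + 1) j x) = 0 := by
  intro m
  induction m with
  | zero =>
    intro j x hx
    rcases eq_or_ne j 1 with rfl | hj
    · rw [show W.upTo 1 1 = W.Y1 from Function.update_self _ _ _]
      exact mean_prim ((h.spT.cont hx).sub continuous_const)
    · rw [show W.upTo 1 j = fun _ _ => 0 from Function.update_of_ne hj _ _]
      exact mean_const 0
  | succ m ih =>
    intro j x hx
    rw [show W.upTo (m + 1 + 1) = Function.update (W.upTo (m + 1)) (m + 2)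
      (W.step (W.upTo (m + 1)) (m + 1)) from rfl]
    rcases eq_or_ne j (m + 2) with rfl | hj
    · rw [Function.update_self]; exact mean_step h (inv_upTo h m).sp _ hx
    · rw [Function.update_of_ne hj]; exact ih j x hx

namespace Bounds

variable {μ : Mag ι E} {W : ι → Free.Data E} (hW : Bounds μ W) {Y : ι → ℕ → E → ℝ → V4} {n : ℕ}
include hW

theorem kin (hY : Grows μ W Y n) : Kin μ (fun t => (W t).toData) Y n where
  one := hY.one
  norm_v := hW.norm_v
  norm_e := hW.norm_e
  ze := hW.ze
  zv := hW.zv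
  beyond t := (hY.inv t).beyond
  size := hY.size
  dv0 := (hW.dprof.le le_rfl (show (1 : ℕ) ≤ 44 by omega)).congr fun t p hp => by
    rw [(hY.inv t).dv0 p.1 (hW.dom t hp.1) p.2, vel, add_sub_cancel_left]
  per t j x hx := ((hY.inv t).sp j).per x (hW.dom t hx)

theorem invZz : Sz μ 0 1 fun t x => ((W t).zz x)⁻¹ :=
  (hW.zz.rel_inv fun t x hx => (hW.good t).zz_pos x (hW.dom t hx)).sz zero_le_one fun t x hx => by
    rw [pow_zero, pow_one, one_mul, one_mul,
      inv_le_iff_one_le_mul₀' ((hW.good t).zz_pos x (hW.dom t hx)), mul_comm]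
    exact hW.zz_lo t x hx

theorem invLsq : Sz μ 0 1 fun t x => ((W t).lsq x)⁻¹ :=
  (hW.lsq.rel_inv fun t x hx => (hW.good t).lsq_pos x (hW.dom t hx)).sz zero_le_one fun t x hx => by
    rw [pow_zero, pow_one, one_mul, one_mul,
      inv_le_iff_one_le_mul₀' ((hW.good t).lsq_pos x (hW.dom t hx)), mul_comm]
    exact hW.lsq_lo t x hx

/-- The corrector made in step `n`. -/
theorem step_size (hY : Grows μ W Y n) :
    Sz μ.fast 1 (expo (n + 1)) fun t p => (W t).step (Y t) n p.1 p.2 := by
  have hn := hY.one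
  set K := 400 * n - 204 with hK
  have hsp : ∀ t j, SP (W t).Ω (Y t j) := fun t => (hY.inv t).sp
  have hg := fun t => hW.good t
  have err := fun i m => (hW.err m).proj i
  have res1 : Sz μ.fast 1 K fun t p => (W t).toData.res1 (Y t) n p.1 p.2 :=
    (((err 1 n).le le_rfl (by omega)).sub (hW.kin hY).coefVE_step).congr fun _ _ _ => rfl
  have du1 : Sz μ.fast 1 K fun t p => (W t).toData.du1 (Y t) n p.1 p.2 :=
    (res1.sub (res1.mean (h := fun t => (W t).toData.res1 (Y t) n)).fast).congr fun _ _ _ => rfl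
  have u1 : Sz μ.fast 1 K fun t p => (W t).toData.u1 (Y t) n p.1 p.2 :=
    du1.prim (h := fun t => (W t).toData.du1 (Y t) n)
      (fun t x hx => (sp_du1 (hg t) (hsp t) n).1.per x (hW.dom t hx)) fun t x hx =>
        (sp_du1 (hg t) (hsp t) n).2 x (hW.dom t hx)
  have half : Sz μ.fast 0 0 fun _ _ => (1 / 2 : ℝ) := Sz.const _
  have gvv : Sz μ.fast 1 (K + 3) fun t p => (W t).gvv (Y t) n p.1 p.2 := by
    have a := half.mul (((err 2 n).le le_rfl (show n ≤ K by omega)).sub (hW.kin hY).coefVV_step)
    have b := ((hW.zv.ip hW.ze).mul hW.invZz).fast.mul du1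
    refine ((a.le (by omega) (by omega)).sub (b.le (by omega) (by omega))).congr fun t p _ => ?_
    simp only [Free.Data.gvv]
    ring
  have mvec : Sz μ 1 (K + 5) fun t x => (W t).mvec (Y t) n x :=
    ((hW.invLsq.smul (Sz.mean (h := fun t x s => (W t).gvv (Y t) n x s • (W t).T x s)
      (gvv.smul hW.prof))).le (by omega) (by omega)).congr fun t x _ => by
        simp only [Free.Data.mvec, one_div]
  have dq : Sz μ.fast 1 (K + 6) fun t p => (W t).dq (Y t) n p.1 p.2 := by
    have a := (gvv.mul hW.invLsq.fast).smul hW.prof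
    have b := Sz.sum (μ := μ.fast) (d := 1) (m := K + 6) Finset.univ
      (f := fun i t (p : E × ℝ) => (W t).mvec (Y t) n p.1 i • (W t).Phi i p.1 p.2)
      fun i _ => ((mvec.proj i).fast.smul (hW.phi i)).le (by omega) (by omega)
    refine ((a.le (by omega) (by omega)).sub b).congr fun t p _ => ?_
    simp only [Free.Data.dq, div_eq_mul_inv]
  have q := dq.prim (h := fun t => (W t).dq (Y t) n)
    (fun t x hx => (sp_dq (hg t) (hsp t) n).1.per x (hW.dom t hx))
    fun t x hx => (sp_dq (hg t) (hsp t) n).2 x (hW.dom t hx)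
  have l := ((u1.mul hW.invZz.fast).smul hW.ze.fast).le (d' := 1) (m' := K + 6) (by omega) (by omega)
  refine ((l.add q).le le_rfl (by unfold expo; split_ifs <;> omega)).congr fun t p _ => ?_
  simp only [Free.Data.step, div_eq_mul_inv]

omit Y n in
/-- **The correctors of a free wave have size `A * M ^ expo`.** -/
theorem grows (m : ℕ) : Grows μ W (fun t => (W t).upTo (m + 1)) (m + 1) := by
  induction m with
  | zero =>
    refine ⟨le_rfl, fun t => inv_upTo (hW.good t) 0, fun j => ?_⟩
    rcases eq_or_ne j 1 with rfl | hj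
    · have h := hW.dprof.prim (h := fun t x s => (W t).T x s - (W t).pv x)
        (fun t x hx s => by simp only [(hW.good t).spT.per x (hW.dom t hx) s])
        fun t x hx => by
          rw [mean_sub ((hW.good t).spT.cont (hW.dom t hx)) continuous_const, mean_const,
            (hW.good t).meanT x (hW.dom t hx), sub_self]
      exact (h.le le_rfl (by unfold expo; split_ifs <;> omega)).congr fun t p _ => congrFun
        (congrFun (show (W t).upTo 1 1 = (W t).Y1 from Function.update_self _ _ _) p.1) p.2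
    · exact Sz.zero.congr fun t p _ => congrFun (congrFun
        (show (W t).upTo 1 j = fun _ _ => 0 from Function.update_of_ne hj _ _) p.1) p.2
  | succ m ih =>
    refine ⟨by omega, fun t => inv_upTo (hW.good t) (m + 1), fun j => ?_⟩
    have e : ∀ t, (W t).upTo (m + 1 + 1) = Function.update ((W t).upTo (m + 1)) (m + 2)
      ((W t).step ((W t).upTo (m + 1)) (m + 1)) := fun t => rfl
    rcases eq_or_ne j (m + 2) with rfl | hj
    · exact (hW.step_size ih).congr fun t p _ => by rw [e, Function.update_self]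
    · exact (ih.size j).congr fun t p _ => by rw [e, Function.update_of_ne hj]

omit hW in
/-- The three coefficients of order `n` as one vector. -/
def coefs (W : ι → Free.Data E) (N n : ℕ) (t : ι) (x : E) (s : ℝ) : Fin 3 → ℝ :=
  coefsOf (fun t => (W t).toData) (fun t => (W t).upTo (N + 1)) n t x s

omit hW in
/-- The tensor left by the free wave in order `n`, free of the fast variable. -/
def slow (W : ι → Free.Data E) (N n : ℕ) (t : ι) (x : E) : Fin 3 → ℝ :=
  mean (coefs W N n t x) - mean ((W t).Err n x)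

omit Y n in
/-- **Every coefficient of positive order has size `A`, its mean `A ^ 2`.** -/
theorem coefs_size (N : ℕ) {n : ℕ} (hn : 1 ≤ n) :
    Sz μ.fast 1 (400 * (n + 2)) (fun t p => coefs W N n t p.1 p.2) ∧
      Sz μ 2 (400 * (n + 2)) fun t x => mean (coefs W N n t x) :=
  (hW.kin (hW.grows N)).coefs_size
    (fun t j x hx => mean_upTo (hW.good t) N j x (hW.dom t hx)) hn

omit Y n in
/-- The slow tensor is quadratic in the amplitude up to the mean of the prescribed term. -/
theorem slow_size (N : ℕ) {n : ℕ} (hn : 1 ≤ n) :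
    Sz μ 1 (400 * (n + 2)) (fun t x => slow W N n t x) ∧
      Sz μ 2 (400 * (n + 2)) fun t x => slow W N n t x + mean ((W t).Err n x) := by
  have h := (hW.coefs_size N hn).2
  have he := ((hW.err n).mean (h := fun t x s => (W t).Err n x s)).le le_rfl
    (show n ≤ 400 * (n + 2) by omega)
  exact ⟨((h.le (by omega) le_rfl).sub he).congr fun _ _ _ => rfl,
    h.congr fun t x _ => by simp [slow]⟩

omit Y n in
/-- The term left to a later wave has size `A`. -/
theorem oscEE_size (N : ℕ) {n : ℕ} (hn : 1 ≤ n) :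
    Sz μ.fast 1 (400 * (n + 2)) fun t p => (W t).oscEE N n p.1 p.2 := by
  have c := ((hW.coefs_size N hn).1.proj 0).sub
    (((hW.err n).proj 0).le le_rfl (show n ≤ 400 * (n + 2) by omega))
  exact (c.sub (c.mean (h := fun t x r =>
    coefs W N n t x r 0 - (W t).Err n x r 0)).fast).congr fun _ _ _ => rfl

omit Y n in
/-- **The free wave leaves the slow tensor and an oscillating multiple of `de²`.** -/
theorem coefs_eq {N n : ℕ} (hn : 1 ≤ n) (hN : n ≤ N) {t : ι} {x : E} (hx : x ∈ μ.S t) (s : ℝ) :
    coefs W N n t x s = (W t).Err n x s + slow W N n t x + ![(W t).oscEE N n x s, 0, 0] := by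
  obtain ⟨S, hS⟩ := coef_eq (hW.good t) hn hN (hW.dom t hx)
  obtain ⟨hsp, h0⟩ := sp_oscEE (hW.good t) N n
  have co := hsp.cont (hW.dom t hx)
  have e : coefs W N n t x = fun r =>
      ((W t).Err n x r + S) + (W t).oscEE N n x r • (![1, 0, 0] : Fin 3 → ℝ) := by
    funext r i
    obtain ⟨h0, h1, h2⟩ := hS r
    fin_cases i
    · simp [coefs, coefsOf, h0]
    · simp [coefs, coefsOf, h1]
    · simp [coefs, coefsOf, h2]
  have hc : Continuous ((W t).Err n x) :=
    continuous_pi fun i => (((hW.good t).smoothErr n i).slice (hW.dom t hx)).continuous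
  have cb : Continuous fun r => (W t).oscEE N n x r • (![1, 0, 0] : Fin 3 → ℝ) :=
    co.smul continuous_const
  have hm : mean (coefs W N n t x) = mean ((W t).Err n x) + S := by
    have ca : Continuous fun r => (W t).Err n x r + S := hc.add continuous_const
    rw [e, mean_add ca cb, mean_smul_const, h0 x (hW.dom t hx), zero_smul, add_zero,
      mean_add hc continuous_const, mean_const]
  rw [slow, hm, add_sub_cancel_left, congrFun e s]
  congr 1
  simp

omit Y n in
/-- Order zero adds the square of the amplitude on the phase. -/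
theorem coefs_zero (N : ℕ) {t : ι} {x : E} (hx : x ∈ μ.S t) (s : ℝ) :
    coefs W N 0 t x s = ![ip ((W t).toData.Ze x) ((W t).toData.Ze x),
      ip ((W t).toData.Zv x) ((W t).toData.Ze x),
      ip ((W t).toData.Zv x) ((W t).toData.Zv x) + (W t).amp2 x] := by
  obtain ⟨h0, h1, h2⟩ := coef_zero (hW.good t) N (hW.dom t hx) s
  simp only [coefs, coefsOf, h0, h1, h2]

end Bounds

end Data

end Vale.Agent.P205.Free
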